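import Vale.Agent.P157.Parisi.Main.Base
import Vale.Agent.P168.Cascade.Shapes

/-! Total masses: shapes, weights, tilts of constants; bounds on the pattern value. -/

noncomputable section

open MeasureTheory ProbabilityTheory Filter
open scoped BigOperators NNReal ENNReal Topology

namespace Vale.Agent.P157.Parisi.Main

open Vale.Agent.P168 (Shape shapeProb shapeInit extProb padded)
open Vale.Agent.P168.Cascade

variable {r : ℕ}

lemma sum_coef {k : ℕ} {v : Shape r k} (hv : IsTree v) (m : Fin r → ℝ) :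
    ∑ q : Fin (r + 1), ∑ a ∈ reps v q.val, coef m v q.val a = k := by
  have h := hv.nodes_identity m (fun _ _ => (1 : ℝ)) (fun _ _ _ _ => rfl)
  simp only [sub_self, mul_zero, Finset.sum_const_zero, zero_sub, mul_one, neg_inj] at h
  simpa using h.symm

lemma sum_shapeProb (m : Fin r → ℝ) : ∀ n : ℕ, ∑ v : Shape r n, shapeProb m n v = 1
  | 0 => by
    haveI : Unique (Shape r 0) := Pi.uniqueOfIsEmpty _
    rw [Fintype.sum_unique]
    rfl
  | 1 => by
    rw [Finset.sum_eq_single (fun _ _ => Fin.last r)]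
    · simp [shapeProb, extProb]
    · intro v _ hv
      show shapeProb m 0 _ * extProb m v = 0
      rw [extProb, if_neg, mul_zero]
      intro h
      refine hv (funext fun a => funext fun b => ?_)
      have ea : a = Fin.last 0 := Fin.ext (by omega)
      have eb : b = Fin.last 0 := Fin.ext (by omega)
      rw [ea, eb, h]
    · simp
  | n + 2 => by
    rw [← Finset.sum_fiberwise Finset.univ (shapeInit (r := r) (n := n + 1))]
    refine Eq.trans (Finset.sum_congr rfl fun v _ => ?_) (sum_shapeProb m (n + 1))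
    rw [Finset.sum_congr (g := fun v' => shapeProb m (n + 1) v * extProb m v') rfl fun v' hv' => by
      show shapeProb m (n + 1) (shapeInit v') * extProb m v' = _
      rw [(Finset.mem_filter.1 hv').2], ← Finset.mul_sum]
    by_cases hp : shapeProb m (n + 1) v = 0
    · simp [hp]
    have hv := isTree_of_prob hp
    have h := hv.sum_extend n.succ_ne_zero m fun _ => 1
    simp only [mul_one] at h
    rw [h]
    simp only [← Finset.sum_div, sum_coef hv m]
    rw [div_self (Nat.cast_ne_zero.2 n.succ_ne_zero), mul_one]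

lemma treeExp_const (ξ : Path) (n : ℕ) (c : ℝ) : ξ.treeExp n (fun _ => c) = c := by
  unfold Path.treeExp
  rw [← Finset.sum_mul, sum_shapeProb, one_mul]

lemma weight_eq (m : Fin r → ℝ) (p : Fin (r + 1)) :
    weight m p = padded m (p.val + 1) - padded m p.val := by
  have h1 : (Fin.snoc m 1 : Fin (r + 1) → ℝ) p = padded m (p.val + 1) := by
    induction p using Fin.lastCases with
    | last => simp [padded]
    | cast i => simp [padded, i.isLt]
  have h2 : (Fin.cons 0 m : Fin (r + 1) → ℝ) p = padded m p.val := by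
    induction p using Fin.cases with
    | zero => simp [padded]
    | succ i => simp [padded, i.isLt]
  rw [weight, h1, h2]

lemma weight_nonneg {m : Fin r → ℝ} {q : Fin (r + 1) → ℝ} (h : IsPath m q) (p : Fin (r + 1)) :
    0 ≤ weight m p := by
  rw [weight_eq, sub_nonneg]
  obtain ⟨i, hi⟩ := p
  rcases i with _ | i
  · by_cases hr : 0 < r
    · simp [padded, hr, (h.pos _).le]
    · simp [padded, hr]
  · by_cases hr : i + 1 < r
    · simp only [padded, Nat.add_sub_cancel, Nat.succ_ne_zero, if_false, dif_pos hr,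
        dif_pos (show i < r by omega)]
      exact h.strictMono.monotone (Fin.le_def.2 (Nat.le_succ i))
    · simp only [padded, Nat.add_sub_cancel, Nat.succ_ne_zero, if_false, dif_neg hr,
        dif_pos (show i < r by omega)]
      exact (h.lt_one _).le

lemma integrable_exp_shift {φ : ℝ → ℝ} {C : ℝ} (hc : Continuous φ) (hb : ∀ x, |φ x| ≤ C)
    (x δ m : ℝ) :
    Integrable (fun g => Real.exp (m * φ (x + Real.sqrt δ * g))) (gaussianReal 0 1) :=
  integrable_exp_of_abs_le (K := |m| * C) (by fun_prop) fun g => by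
    rw [abs_mul]; exact mul_le_mul_of_nonneg_left (hb _) (abs_nonneg _)

lemma layer_facts {m δ : ℝ} {F : ℝ → ℝ} {C : ℝ} (hm : 0 < m) (hc : Continuous F)
    (hb : ∀ x, |F x| ≤ C) : Continuous (layer m δ F) ∧ ∀ x, |layer m δ F x| ≤ C := by
  have hI : ∀ x, Real.exp (-(m * C)) ≤ ∫ g, Real.exp (m * F (x + Real.sqrt δ * g)) ∂gaussianReal 0 1 ∧
      ∫ g, Real.exp (m * F (x + Real.sqrt δ * g)) ∂gaussianReal 0 1 ≤ Real.exp (m * C) := fun x =>
    integral_exp_mem (by fun_prop) fun g => by
      rw [abs_mul, abs_of_pos hm]; exact mul_le_mul_of_nonneg_left (hb _) hm.le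
  constructor
  · refine continuous_const.mul (Continuous.log ?_ fun x => ((Real.exp_pos _).trans_le (hI x).1).ne')
    exact continuous_of_dominated (bound := fun _ => Real.exp (m * C))
      (fun x => (by fun_prop : Continuous fun g => Real.exp (m * F (x + Real.sqrt δ * g))).aestronglyMeasurable)
      (fun x => Eventually.of_forall fun g => by
        rw [Real.norm_eq_abs, Real.abs_exp]
        exact Real.exp_le_exp.2 (mul_le_mul_of_nonneg_left (abs_le.1 (hb _)).2 hm.le))
      (integrable_const _) (Eventually.of_forall fun g => by fun_prop)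
  · intro x
    have hp := (Real.exp_pos _).trans_le (hI x).1
    rw [layer, abs_mul, abs_of_pos (one_div_pos.2 hm), one_div_mul_eq_div, div_le_iff₀ hm, abs_le,
      Real.le_log_iff_exp_le hp, Real.log_le_iff_le_exp hp, mul_comm C]
    exact hI x

lemma level_facts : ∀ {r : ℕ} {m : Fin r → ℝ} (q : Fin (r + 1) → ℝ) {φ : ℝ → ℝ} {C : ℝ},
    (∀ i, 0 < m i) → Continuous φ → (∀ x, |φ x| ≤ C) → ∀ p : Fin (r + 1),
    Continuous (level m q φ p) ∧ ∀ x, |level m q φ p x| ≤ C
  | 0, _, _, _, _, _, hc, hb, _ => ⟨hc, hb⟩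
  | r + 1, m, q, φ, C, hm, hc, hb, p => by
    have ih := level_facts (m := Fin.tail m) (Fin.tail q) (fun i => hm i.succ) hc hb
    induction p using Fin.cases with
    | zero => exact layer_facts (hm 0) (ih 0).1 (ih 0).2
    | succ i => exact ih i

lemma down_const : ∀ {r : ℕ} {m : Fin r → ℝ} (q : Fin (r + 1) → ℝ) {φ : ℝ → ℝ} {C : ℝ},
    (∀ i, 0 < m i) → Continuous φ → (∀ x, |φ x| ≤ C) → ∀ (p : Fin (r + 1)) (c : ℝ),
    down m q φ p (fun _ => c) = fun _ => c
  | 0, _, _, _, _, _, _, _, _, _ => rfl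
  | r + 1, m, q, φ, C, hm, hc, hb, p, c => by
    induction p using Fin.cases with
    | zero => rfl
    | succ i =>
      funext x
      show tilt (m 0) (q 1 - q 0) (level (Fin.tail m) (Fin.tail q) φ 0)
        (down (Fin.tail m) (Fin.tail q) φ i fun _ => c) x = c
      rw [down_const (m := Fin.tail m) (Fin.tail q) (fun i => hm i.succ) hc hb i c]
      obtain ⟨h1, h2⟩ := level_facts (m := Fin.tail m) (Fin.tail q) (fun i => hm i.succ) hc hb 0
      have hi := integrable_exp_shift h1 h2 x (q 1 - q 0) (m 0)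
      rw [tilt, integral_mul_const, mul_div_assoc, mul_comm, div_mul_cancel₀]
      exact (integral_exp_pos hi).ne'

variable {f : ℝ → ℝ} {A : ℝ}

lemma topMean_facts (hf : Smooth f A) (δ : ℝ) :
    Continuous (topMean f δ) ∧ ∀ x, |topMean f δ x| ≤ A := by
  obtain ⟨h1, h2⟩ := layer_facts (δ := δ) one_pos hf.d0.continuous hf.b0
  have e : topMean f δ = layer 1 δ f := by funext x; simp [topMean, layer]
  rw [e]
  exact ⟨h1, h2⟩

lemma abs_patValue_le (hf : Smooth f A) (ξ : Path) : |patValue f ξ.m ξ.q| ≤ A := by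
  obtain ⟨-, h⟩ := level_facts (m := ξ.m) ξ.q ξ.isPath.pos (topMean_facts hf _).1
    (topMean_facts hf _).2 0
  simpa [patValue] using norm_integral_le_of_norm_le_const (μ := gaussianReal 0 1)
    (Eventually.of_forall fun g => show ‖level ξ.m ξ.q (topMean f (1 - ξ.q (Fin.last ξ.r))) 0
      (Real.sqrt (ξ.q 0) * g)‖ ≤ A from h _)

/-- The trivial observable. -/
def unitObs {n : ℕ} (hn : 0 < n) : Obs n := ⟨⟨0, hn⟩, ⟨0, hn⟩, fun _ => 1, fun _ => 1⟩

lemma unitObs_good {n : ℕ} (hn : 0 < n) : (unitObs hn).Good :=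
  ⟨continuous_const, continuous_const, 1, fun _ => by simp [unitObs]⟩

lemma unitObs_val (hf : Smooth f A) (ξ : Path) {n : ℕ} (hn : 0 < n) (v : Shape ξ.r n) :
    (unitObs hn).val ξ f v = 1 := by
  obtain ⟨h1, h2⟩ := topMean_facts hf (1 - ξ.q (Fin.last ξ.r))
  simp only [Obs.val, unitObs, if_true, mul_one, Path.oneVal]
  have hb : bar f (1 - ξ.q (Fin.last ξ.r)) (fun _ => (1 : ℝ)) = fun _ => (1 : ℝ) := by
    funext x
    simp only [bar, mul_one]
    refine div_self (ne_of_gt ?_)
    have hfm := hf.d0.continuous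
    exact integral_exp_pos (integrable_exp_of_abs_le (K := A) (by fun_prop) fun η => hf.b0 _)
  rw [hb, down_const ξ.q ξ.isPath.pos h1 h2]
  simp

end Vale.Agent.P157.Parisi.Main
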