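import Vale.Agent.P157.Parisi.Main.Limit

/-! The perturbed log-partition against the pressure. -/

noncomputable section

open MeasureTheory ProbabilityTheory Filter
open scoped BigOperators NNReal ENNReal Topology

namespace Vale.Agent.P157.Parisi.Main

open Vale.Agent.P168.Toolkit (integrable_count integrable_poisson_of_linear)

variable {f : ℝ → ℝ} {A α s μ : ℝ} {N L : ℕ}

/-- The coefficient of a perturbation coordinate. -/
def pertCoef (s : ℝ) (x : Fin L → ℝ) (σ : Cube N) (c : PertIdx N L) : ℝ :=
  s * x c.1 * (1 / 2) ^ (c.1.val + 1) * ∏ i, unitVec σ (c.2 i)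

lemma pertH_coef (x : Fin L → ℝ) (J : PertIdx N L → ℝ) (σ : Cube N) :
    pertH s x J σ = ∑ c, J c * pertCoef s x σ c := rfl

lemma sum_unitVec_sq (hN : 0 < N) (σ : Cube N) : ∑ i, unitVec σ i ^ 2 = 1 := by
  simp only [unitVec, div_pow, Real.sq_sqrt (Nat.cast_nonneg N)]
  have h : ∀ i, sv σ i ^ 2 = 1 := fun i => by rw [← sq_abs, abs_sv, one_pow]
  simp only [h, Finset.sum_const, Finset.card_univ, Fintype.card_fin, nsmul_eq_mul]
  field_simp

lemma sum_pertCoef_sq (hN : 0 < N) {x : Fin L → ℝ} (hx : ∀ i, x i ∈ Set.Icc (1 : ℝ) 2)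
    (σ : Cube N) : ∑ c, pertCoef s x σ c ^ 2 ≤ 2 * s ^ 2 := by
  have h : ∑ c, pertCoef s x σ c ^ 2 =
      ∑ p : Fin L, (s * x p * (1 / 2) ^ (p.val + 1)) ^ 2 := by
    rw [Fintype.sum_sigma]
    refine Finset.sum_congr rfl fun p _ => ?_
    simp only [pertCoef, mul_pow, ← Finset.prod_pow, ← Finset.mul_sum]
    rw [← Fintype.sum_pow (fun j => unitVec σ j ^ 2), sum_unitVec_sq hN, one_pow, mul_one]
  rw [h]
  refine (Finset.sum_le_sum (g := fun p : Fin L => s ^ 2 * (1 / 4) ^ p.val) fun p _ => ?_).trans ?_
  · have h1 : x p ^ 2 ≤ 4 := by nlinarith [(hx p).1, (hx p).2]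
    calc (s * x p * (1 / 2) ^ (p.val + 1)) ^ 2 =
          s ^ 2 * (1 / 4 : ℝ) ^ p.val * (x p ^ 2 / 4) := by
          rw [mul_pow, mul_pow, ← pow_mul, mul_comm (p.val + 1) 2, pow_mul, pow_succ]
          norm_num; ring
      _ ≤ s ^ 2 * (1 / 4) ^ p.val * 1 :=
          mul_le_mul_of_nonneg_left (by linarith) (by positivity)
      _ = _ := mul_one _
  · rw [← Finset.mul_sum, mul_comm 2, Fin.sum_univ_eq_sum_range fun p => (1 / 4 : ℝ) ^ p]
    refine mul_le_mul_of_nonneg_left ?_ (sq_nonneg s)
    have h4 := geom_sum_Ico_le_of_lt_one (m := 0) (n := L) (show (0 : ℝ) ≤ 1 / 4 by norm_num)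
      (by norm_num)
    rw [← Finset.range_eq_Ico] at h4
    exact h4.trans (by norm_num)

/-- The perturbation changes the log-average by at most half its variance. -/
lemma pert_gap (hN : 0 < N) {x : Fin L → ℝ} (hx : ∀ i, x i ∈ Set.Icc (1 : ℝ) 2) (H : Cube N → ℝ) :
    |(∫ J, cubeLog (fun σ => H σ + pertH s x J σ) ∂gam (PertIdx N L)) - cubeLog H| ≤ s ^ 2 := by
  set w := gibbs H
  have hw : ∀ σ, 0 ≤ w σ := gibbs_nonneg H
  have hm : ∀ σ, Measurable fun J : PertIdx N L → ℝ => pertH s x J σ := fun σ =>
    (measurable_pertH (s := s) σ).comp measurable_prodMk_left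
  have hlin : ∀ σ, Integrable (fun J => pertH s x J σ) (gam (PertIdx N L)) := fun σ => by
    simp only [pertH_coef]
    exact integrable_finsetSum _ fun c _ =>
      (P168.Toolkit.integrable_eval_gaussPi c).mul_const _
  have hexp : ∀ σ, Integrable (fun J => Real.exp (pertH s x J σ)) (gam (PertIdx N L)) ∧
      ∫ J, Real.exp (pertH s x J σ) ∂gam (PertIdx N L) ≤ Real.exp (s ^ 2) := by
    intro σ
    have e : ∀ J : PertIdx N L → ℝ, pertH s x J σ = ∑ c, pertCoef s x σ c * J c := fun J => by
      rw [pertH_coef]; exact Finset.sum_congr rfl fun c _ => mul_comm _ _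
    simp only [e]
    refine ⟨P168.Toolkit.integrable_exp_linear _, ?_⟩
    rw [P168.Toolkit.integral_exp_linear]
    exact Real.exp_le_exp.2 (by linarith [sum_pertCoef_sq (s := s) hN hx σ])
  set Z : (PertIdx N L → ℝ) → ℝ := fun J => ∑ σ, w σ * Real.exp (pertH s x J σ)
  have hZp : ∀ J, 0 < Z J := fun J => Finset.sum_pos
    (fun σ _ => mul_pos (div_pos (Real.exp_pos _) (sum_exp_pos H)) (Real.exp_pos _))
    Finset.univ_nonempty
  have hlo : ∀ J, ∑ σ, w σ * pertH s x J σ ≤ Real.log (Z J) := fun J => by
    rw [Real.le_log_iff_exp_le (hZp J)]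
    have := convexOn_exp.map_sum_le (t := Finset.univ) (w := w) (p := fun σ => pertH s x J σ)
      (fun σ _ => hw σ) (sum_gibbs H) fun σ _ => Set.mem_univ _
    simpa using this
  have hhi : ∀ J, Real.log (Z J) ≤ Z J * Real.exp (-s ^ 2) + s ^ 2 - 1 := fun J => by
    have := Real.log_le_sub_one_of_pos (mul_pos (hZp J) (Real.exp_pos (-s ^ 2)))
    rw [Real.log_mul (hZp J).ne' (Real.exp_pos _).ne', Real.log_exp] at this
    linarith
  have hZi : Integrable Z (gam (PertIdx N L)) :=
    integrable_finsetSum _ fun σ _ => (hexp σ).1.const_mul _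
  have hloi : Integrable (fun J => ∑ σ, w σ * pertH s x J σ) (gam (PertIdx N L)) :=
    integrable_finsetSum _ fun σ _ => (hlin σ).const_mul _
  have hlogm : Measurable fun J => Real.log (Z J) :=
    (Finset.measurable_sum _ fun σ _ => (hm σ).exp.const_mul _).log
  have hhii : Integrable (fun J => Z J * Real.exp (-s ^ 2) + s ^ 2 - 1) (gam (PertIdx N L)) :=
    ((hZi.mul_const _).add (integrable_const _)).sub (integrable_const _)
  have hli : Integrable (fun J => Real.log (Z J)) (gam (PertIdx N L)) :=
    (hloi.abs.add hhii.abs).mono' hlogm.aestronglyMeasurable (Eventually.of_forall fun J => by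
      simp only [Real.norm_eq_abs, Pi.add_apply, abs_le]
      constructor <;> linarith [neg_abs_le (∑ σ, w σ * pertH s x J σ),
        le_abs_self (Z J * Real.exp (-s ^ 2) + s ^ 2 - 1), hlo J, hhi J,
        abs_nonneg (∑ σ, w σ * pertH s x J σ), abs_nonneg (Z J * Real.exp (-s ^ 2) + s ^ 2 - 1)])
  have hci : Integrable (fun J => cubeLog fun σ => H σ + pertH s x J σ) (gam (PertIdx N L)) :=
    (hli.add (integrable_const (cubeLog H))).congr (Eventually.of_forall fun J => by
      have := cubeLog_add H fun σ => pertH s x J σ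
      simp only [Pi.add_apply, Z, w, gibbs]
      linarith)
  have hdiff : (∫ J, cubeLog (fun σ => H σ + pertH s x J σ) ∂gam (PertIdx N L)) - cubeLog H =
      ∫ J, Real.log (Z J) ∂gam (PertIdx N L) := by
    rw [← show ∫ _J : PertIdx N L → ℝ, cubeLog H ∂gam (PertIdx N L) = cubeLog H by simp,
      ← integral_sub hci (integrable_const _)]
    exact integral_congr_ae (Eventually.of_forall fun J => cubeLog_add H fun σ => pertH s x J σ)
  have hzero : ∫ J, ∑ σ, w σ * pertH s x J σ ∂gam (PertIdx N L) = 0 := by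
    rw [integral_finsetSum _ fun σ _ => (hlin σ).const_mul _]
    refine Finset.sum_eq_zero fun σ _ => ?_
    simp only [pertH_coef, integral_const_mul, mul_eq_zero]
    rw [integral_finsetSum _ fun c _ => (P168.Toolkit.integrable_eval_gaussPi c).mul_const _]
    refine Or.inr (Finset.sum_eq_zero fun c _ => ?_)
    rw [integral_mul_const, integral_eval, integral_id_gaussianReal, zero_mul]
  have hZ : ∫ J, Z J ∂gam (PertIdx N L) ≤ Real.exp (s ^ 2) := by
    rw [integral_finsetSum _ fun σ _ => (hexp σ).1.const_mul _]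
    calc _ ≤ ∑ σ, w σ * Real.exp (s ^ 2) := Finset.sum_le_sum fun σ _ => by
          rw [integral_const_mul]; exact mul_le_mul_of_nonneg_left (hexp σ).2 (hw σ)
      _ = _ := by rw [← Finset.sum_mul, sum_gibbs, one_mul]
  have h1 := integral_mono hloi hli hlo
  have h2 := integral_mono hli hhii hhi
  rw [integral_sub, integral_add, integral_mul_const] at h2
  · simp only [integral_const, probReal_univ, smul_eq_mul, one_mul] at h2
    have h3 := mul_le_mul_of_nonneg_right hZ (Real.exp_pos (-s ^ 2)).le
    rw [← Real.exp_add, add_neg_cancel, Real.exp_zero] at h3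
    rw [hdiff, abs_le]
    constructor <;> linarith [sq_nonneg s]
  · exact hZi.mul_const _
  · exact integrable_const _
  · exact (hZi.mul_const _).add (integrable_const _)
  · exact integrable_const _

/-- The mean log-average over the cube with `n` patterns. -/
def patLog (f : ℝ → ℝ) (N n : ℕ) : ℝ :=
  ∫ g, cubeLog (patH f n g) ∂(Measure.infinitePi fun _ : ℕ => gam (Fin N))

lemma measurable_cubeLog_patH (hf : Smooth f A) (n : ℕ) :
    Measurable fun g : ℕ → Fin N → ℝ => cubeLog (patH f n g) :=
  measurable_cubeLog.comp (measurable_pi_lambda _ fun σ =>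
    (measurable_patH hf σ).comp measurable_prodMk_left)

lemma integrable_cubeLog_patH (hf : Smooth f A) (n : ℕ) :
    Integrable (fun g => cubeLog (patH f n g)) (Measure.infinitePi fun _ : ℕ => gam (Fin N)) :=
  integrable_of_abs_le (K := n * A) (measurable_cubeLog_patH hf n) fun g =>
    abs_cubeLog_le fun σ => abs_patH_le hf n g σ

lemma patLog_succ (hf : Smooth f A) (N n : ℕ) : |patLog f N (n + 1) - patLog f N n| ≤ A := by
  rw [patLog, patLog, ← integral_sub (integrable_cubeLog_patH hf _) (integrable_cubeLog_patH hf _)]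
  suffices h : ∀ g : ℕ → Fin N → ℝ, ‖cubeLog (patH f (n + 1) g) - cubeLog (patH f n g)‖ ≤ A by
    refine (norm_integral_le_of_norm_le_const
      (μ := Measure.infinitePi fun _ : ℕ => gam (Fin N)) (Eventually.of_forall h)).trans_eq ?_
    rw [probReal_univ, mul_one]
  intro g
  have e : patH f (n + 1) g = fun σ => patH f n g σ + f (dot (g n) (unitVec σ)) :=
    funext fun σ => Finset.sum_range_succ _ _
  rw [e, Real.norm_eq_abs, cubeLog_add]
  have hw : ∀ σ : Cube N, 0 ≤ gibbs (patH f n g) σ := gibbs_nonneg _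
  have hp : 0 < ∑ σ, gibbs (patH f n g) σ * Real.exp (f (dot (g n) (unitVec σ))) :=
    Finset.sum_pos (fun σ _ => mul_pos (div_pos (Real.exp_pos _) (sum_exp_pos _)) (Real.exp_pos _))
      Finset.univ_nonempty
  show |Real.log (∑ σ, gibbs (patH f n g) σ * _)| ≤ A
  rw [abs_le, Real.le_log_iff_exp_le hp, Real.log_le_iff_le_exp hp]
  constructor
  · calc Real.exp (-A) = ∑ σ, gibbs (patH f n g) σ * Real.exp (-A) := by
          rw [← Finset.sum_mul, sum_gibbs, one_mul]
      _ ≤ _ := Finset.sum_le_sum fun σ _ => mul_le_mul_of_nonneg_left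
          (Real.exp_le_exp.2 (abs_le.1 (hf.b0 _)).1) (hw σ)
  · calc _ ≤ ∑ σ, gibbs (patH f n g) σ * Real.exp A := Finset.sum_le_sum fun σ _ =>
          mul_le_mul_of_nonneg_left (Real.exp_le_exp.2 (abs_le.1 (hf.b0 _)).2) (hw σ)
      _ = _ := by rw [← Finset.sum_mul, sum_gibbs, one_mul]

lemma integral_rad_pi (h : (Fin N → ℝ) → ℝ) (hm : Measurable h) :
    ∫ y, h y ∂isingLaw N = (∑ σ : Cube N, h (sv σ)) / 2 ^ N := by
  set B : Measure Bool := (2 : ℝ≥0∞)⁻¹ • (Measure.dirac true + Measure.dirac false) with hB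
  have hBp : IsProbabilityMeasure B := by
    constructor
    simp only [B, Measure.smul_apply, Measure.add_apply, measure_univ, smul_eq_mul,
      show (1 : ℝ≥0∞) + 1 = 2 by norm_num]
    exact ENNReal.inv_mul_cancel two_ne_zero ENNReal.ofNat_ne_top
  have e1 : B.map (fun b => if b then (1 : ℝ) else -1) =
      (2 : ℝ≥0∞)⁻¹ • (Measure.dirac (1 : ℝ) + Measure.dirac (-1 : ℝ)) := by
    rw [hB, Measure.map_smul, Measure.map_add _ _ Measurable.of_discrete,
      Measure.map_dirac' Measurable.of_discrete, Measure.map_dirac' Measurable.of_discrete]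
    simp
  have e : isingLaw N = (Measure.pi fun _ : Fin N => B).map fun σ => sv σ := by
    have hp := (Measure.pi_map_pi (μ := fun _ : Fin N => B)
      (f := fun (_ : Fin N) (b : Bool) => if b then (1 : ℝ) else -1)
      fun _ => Measurable.of_discrete.aemeasurable).symm
    simp only [e1] at hp
    exact hp
  rw [e, integral_map Measurable.of_discrete.aemeasurable hm.aestronglyMeasurable,
    integral_fintype (Integrable.of_finite), Finset.sum_div]
  refine Finset.sum_congr rfl fun σ _ => ?_
  have hs : ∀ b : Bool, B.real {b} = 1 / 2 := fun b => by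
    cases b <;> simp [B, measureReal_def]
  rw [measureReal_def, Measure.pi_singleton, ENNReal.toReal_prod]
  simp only [← measureReal_def, hs, Finset.prod_const, Finset.card_univ, Fintype.card_fin,
    smul_eq_mul, div_pow, one_pow]
  ring

lemma meanPressure_eq (hf : Smooth f A) (α : ℝ) (N : ℕ) :
    meanPressure isingLaw α f N = patLog f N ⌊α * N⌋₊ / N := by
  have hp : MeasurePreserving (fun g : ℕ → Fin N → ℝ => fun i : Fin ⌊α * N⌋₊ => g i)
      (Measure.infinitePi fun _ => gam (Fin N)) (Measure.pi fun _ => gam (Fin N)) :=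
    measurePreserving_fst.comp (mp_cut ⌊α * N⌋₊ 0)
  have key : ∀ g : ℕ → Fin N → ℝ, Real.log (∫ y, Real.exp (∑ a : Fin ⌊α * N⌋₊,
      f ((∑ i, g a i * y i) / Real.sqrt N)) ∂isingLaw N) = cubeLog (patH f ⌊α * N⌋₊ g) := by
    intro g
    have hfm := smooth_meas hf
    rw [integral_rad_pi _ (by fun_prop), cubeLog]
    congr 2
    refine Finset.sum_congr rfl fun σ _ => ?_
    rw [patH, ← Fin.sum_univ_eq_sum_range fun a => f (dot (g a) (unitVec σ))]
    congr 1
    refine Finset.sum_congr rfl fun a _ => ?_
    simp only [dot, unitVec, Finset.sum_div, mul_div_assoc]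
  rw [meanPressure, patLog, patterns, integral_const_mul]
  have hm : Measurable fun g : Fin ⌊α * N⌋₊ → Fin N → ℝ =>
      Real.log (∫ y, Real.exp (∑ a, f ((∑ i, g a i * y i) / Real.sqrt N)) ∂isingLaw N) := by
    have hfm := smooth_meas hf
    have := fun g : Fin ⌊α * N⌋₊ → Fin N → ℝ => integral_rad_pi
      (fun y => Real.exp (∑ a, f ((∑ i, g a i * y i) / Real.sqrt N))) (by fun_prop)
    simp only [this]
    fun_prop
  rw [← hp.map_eq, integral_map hp.measurable.aemeasurable hm.aestronglyMeasurable]
  simp only [key]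
  ring

/-- The perturbed log-partition is close to `N` times the pressure. -/
lemma logPartS_close (hf : Smooth f A) (hα : 0 ≤ α) (hN : 0 < N) {x : Fin N → ℝ}
    (hx : ∀ i, x i ∈ Set.Icc (1 : ℝ) 2) :
    |logPartS N f s x (α * N) - N * meanPressure isingLaw α f N| ≤
      s ^ 2 + A * (Real.sqrt (α * N) + 1) := by
  have hA := smooth_nonneg hf
  have hμ : 0 ≤ α * N := mul_nonneg hα (Nat.cast_nonneg N)
  set μ := α * (N : ℝ)
  set r := μ.toNNReal
  have hr : (r : ℝ) = μ := Real.coe_toNNReal μ hμ
  have hT := tame_cubeLog (N := N) (s := s) hf hx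
  rw [meanPressure_eq hf, mul_div_cancel₀ _ (Nat.cast_ne_zero.2 hN.ne'), logPartS_disMean,
    disMean_eq hT hf]
  have hcm : ∀ n, |countMean (N := N) f s x cubeLog n - patLog f N n| ≤ s ^ 2 := by
    intro n
    have hgJ := hT.integrable_gJ hf n
    rw [countMean, ← integral_integral_swap hgJ, patLog,
      ← integral_sub hgJ.integral_prod_left (integrable_cubeLog_patH hf n)]
    simpa using norm_integral_le_of_norm_le_const (μ := Measure.infinitePi fun _ : ℕ => gam (Fin N))
      (Eventually.of_forall fun g => show ‖(∫ J, cubeLog (fun σ => patH f n g σ + pertH s x J σ)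
        ∂gam (PertIdx N N)) - cubeLog (patH f n g)‖ ≤ s ^ 2 from pert_gap hN hx (patH f n g))
  have hlip : ∀ n m : ℕ, |patLog f N n - patLog f N m| ≤ A * |(n : ℝ) - m| := by
    intro n m
    rcases le_total m n with h | h
    · obtain ⟨l, rfl⟩ := Nat.exists_eq_add_of_le h
      refine (P168.Toolkit.abs_le_linear (fun k => patLog_succ hf N k) m l).trans_eq ?_
      push_cast; simp
    · obtain ⟨l, rfl⟩ := Nat.exists_eq_add_of_le h
      rw [abs_sub_comm, abs_sub_comm (n : ℝ)]
      refine (P168.Toolkit.abs_le_linear (fun k => patLog_succ hf N k) n l).trans_eq ?_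
      push_cast; simp
  set M := ⌊μ⌋₊
  have hcount : Integrable (fun n : ℕ => |(n : ℝ) - M|) (poissonMeasure r) :=
    ((integrable_count r).sub (integrable_const _)).abs
  have hintc : Integrable (countMean (N := N) f s x cubeLog) (poissonMeasure r) :=
    integrable_poisson_of_linear r (A := ∫ J, (A + pertBound s N J) ∂gam (PertIdx N N))
      (B := ∫ J, (A + pertBound s N J) ∂gam (PertIdx N N)) fun n =>
      (abs_countMean_le hT n).trans_eq (by ring)
  have hdev : ∫ n, |(n : ℝ) - M| ∂poissonMeasure r ≤ Real.sqrt μ + 1 := by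
    have h1 : ∫ n, |(n : ℝ) - r| ∂poissonMeasure r ≤ Real.sqrt μ := by
      have hv : variance (fun n : ℕ => |(n : ℝ) - r|) (poissonMeasure r) ≥ 0 := variance_nonneg _ _
      have hmem : MemLp (fun n : ℕ => |(n : ℝ) - r|) 2 (poissonMeasure r) :=
        ((P168.Toolkit.memLp_count r).sub (memLp_const _)).norm
      rw [variance_eq_sub hmem] at hv
      have h2 : ∫ n, ((n : ℝ) - r) ^ 2 ∂poissonMeasure r = r := by
        have := P168.Toolkit.variance_count r
        rw [variance_eq_integral (P168.Toolkit.memLp_count r).aemeasurable,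
          P168.Toolkit.integral_count] at this
        exact this
      simp only [Pi.pow_apply, sq_abs] at hv
      rw [h2] at hv
      exact Real.le_sqrt_of_sq_le (by linarith [hr])
    have h3 : |(r : ℝ) - M| ≤ 1 := by
      rw [hr, abs_le]
      constructor <;> linarith [Nat.floor_le hμ, Nat.lt_floor_add_one μ]
    calc ∫ n, |(n : ℝ) - M| ∂poissonMeasure r
        ≤ ∫ n, (|(n : ℝ) - r| + 1) ∂poissonMeasure r := by
          refine integral_mono hcount (((integrable_count r).sub (integrable_const _)).abs.add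
            (integrable_const _)) fun n => ?_
          have := abs_sub_le (n : ℝ) r M
          show |(n : ℝ) - M| ≤ |(n : ℝ) - r| + 1
          linarith
      _ ≤ _ := by
          have hi : Integrable (fun n : ℕ => |(n : ℝ) - r|) (poissonMeasure r) :=
            ((integrable_count r).sub (integrable_const _)).abs
          rw [integral_add hi (integrable_const _)]
          simpa using h1
  rw [← show ∫ _n : ℕ, patLog f N M ∂poissonMeasure r = patLog f N M by simp,
    ← integral_sub hintc (integrable_const _)]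
  refine (abs_integral_le_integral_abs).trans ?_
  calc ∫ n, |countMean f s x cubeLog n - patLog f N M| ∂poissonMeasure r
      ≤ ∫ n, (s ^ 2 + A * |(n : ℝ) - M|) ∂poissonMeasure r := by
        refine integral_mono (hintc.sub (integrable_const _)).abs
          ((integrable_const _).add (hcount.const_mul A)) fun n => ?_
        exact (abs_sub_le _ (patLog f N n) _).trans (add_le_add (hcm n) (hlip n M))
    _ ≤ _ := by
        rw [integral_add (integrable_const _) (hcount.const_mul A), integral_const_mul]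
        simp only [integral_const, probReal_univ, smul_eq_mul, one_mul]
        have := mul_le_mul_of_nonneg_left hdev hA
        linarith

end Vale.Agent.P157.Parisi.Main
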