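import Vale.Agent.P157.Parisi.System

/-! `Smooth` from the usual hypotheses. -/

noncomputable section

namespace Vale.Agent.P157.Parisi.Main

theorem smooth_of_contDiff {f : ℝ → ℝ} {A : ℝ} (hf : ContDiff ℝ 3 f)
    (hA : ∀ j ≤ 3, ∀ z, |iteratedDeriv j f z| ≤ A) : Smooth f A := by
  have e1 : iteratedDeriv 1 f = deriv f := iteratedDeriv_one
  have e2 : iteratedDeriv 2 f = deriv (deriv f) := by rw [iteratedDeriv_succ, e1]
  have e3 : iteratedDeriv 3 f = deriv (deriv (deriv f)) := by rw [iteratedDeriv_succ, e2]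
  refine ⟨hf.differentiable (by norm_num), ?_, ?_, fun z => by simpa using hA 0 (by norm_num) z,
    fun z => e1 ▸ hA 1 (by norm_num) z, fun z => e2 ▸ hA 2 (by norm_num) z,
    fun z => e3 ▸ hA 3 le_rfl z⟩
  · rw [← e1]; exact hf.differentiable_iteratedDeriv 1 (by norm_num)
  · rw [← e2]; exact hf.differentiable_iteratedDeriv 2 (by norm_num)

end Vale.Agent.P157.Parisi.Main
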