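import Vale.Agent.P157.Parisi.Statements
import Vale.Agent.P157.Laws
import Vale.Agent.P168.Limit.ToolkitPoisson
import Vale.Agent.P168.Limit.Toolkit

/-! Basic facts on the perturbed system: measurability, bounds, fresh patterns. -/

noncomputable section

open MeasureTheory ProbabilityTheory Filter
open scoped BigOperators NNReal ENNReal Topology

namespace Vale.Agent.P157.Parisi.Main

variable {f : ℝ → ℝ} {A s μ : ℝ} {N L : ℕ}

lemma smooth_nonneg (hf : Smooth f A) : 0 ≤ A := (abs_nonneg _).trans (hf.b0 0)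

lemma smooth_meas (hf : Smooth f A) : Measurable f := hf.d0.continuous.measurable

instance : IsProbabilityMeasure (disLaw N L μ) := by unfold disLaw; infer_instance

instance (L : ℕ) : IsProbabilityMeasure (xLaw L) := by
  have : IsProbabilityMeasure (volume.restrict (Set.Icc (1 : ℝ) 2)) :=
    ⟨by rw [Measure.restrict_apply_univ, Real.volume_Icc]; norm_num⟩
  unfold xLaw; infer_instance

lemma ae_xLaw (L : ℕ) : ∀ᵐ x ∂xLaw L, ∀ i, x i ∈ Set.Icc (1 : ℝ) 2 := by
  have : IsProbabilityMeasure (volume.restrict (Set.Icc (1 : ℝ) 2)) :=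
    ⟨by rw [Measure.restrict_apply_univ, Real.volume_Icc]; norm_num⟩
  rw [ae_all_iff]
  intro i
  exact (Measure.tendsto_eval_ae_ae (μ := fun _ : Fin L => volume.restrict (Set.Icc (1 : ℝ) 2))
    (i := i)).eventually (ae_restrict_mem measurableSet_Icc)

/-- The pattern part of the Hamiltonian. -/
def patH (f : ℝ → ℝ) (n : ℕ) (g : ℕ → Fin N → ℝ) (σ : Cube N) : ℝ :=
  ∑ a ∈ Finset.range n, f (dot (g a) (unitVec σ))

lemma abs_patH_le (hf : Smooth f A) (n : ℕ) (g : ℕ → Fin N → ℝ) (σ : Cube N) :
    |patH f n g σ| ≤ n * A :=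
  (Finset.abs_sum_le_sum_abs _ _).trans
    ((Finset.sum_le_sum fun a _ => hf.b0 _).trans_eq (by simp))

lemma measurable_patH (hf : Smooth f A) (σ : Cube N) :
    Measurable fun p : ℕ × (ℕ → Fin N → ℝ) => patH f p.1 p.2 σ := by
  refine measurable_from_prod_countable_right fun n => ?_
  show Measurable fun g : ℕ → Fin N → ℝ => ∑ a ∈ Finset.range n, f (dot (g a) (unitVec σ))
  refine Finset.measurable_sum _ fun a _ => (smooth_meas hf).comp ?_
  unfold dot; fun_prop

lemma measurable_pertH (σ : Cube N) :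
    Measurable fun p : (Fin L → ℝ) × (PertIdx N L → ℝ) => pertH s p.1 p.2 σ := by
  unfold pertH; fun_prop

lemma totalH_eq (x : Fin L → ℝ) (d : Dis N L) (σ : Cube N) :
    totalH f s x d σ = patH f d.1 d.2.1 σ + pertH s x d.2.2 σ := rfl

lemma measurable_totalH (hf : Smooth f A) (σ : Cube N) :
    Measurable fun p : (Fin L → ℝ) × Dis N L => totalH f s p.1 p.2 σ := by
  simp only [totalH_eq]
  exact ((measurable_patH hf σ).comp (measurable_snd.fst.prodMk measurable_snd.snd.fst)).add
    ((measurable_pertH (s := s) σ).comp (measurable_fst.prodMk measurable_snd.snd.snd))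

lemma sum_exp_pos (H : Cube N → ℝ) : 0 < ∑ σ, Real.exp (H σ) :=
  Finset.sum_pos (fun _ _ => Real.exp_pos _) Finset.univ_nonempty

lemma sysState_good (hf : Smooth f A) (x : Fin L → ℝ) : (sysState N f s x μ).IsGood where
  prob := inferInstanceAs (IsProbabilityMeasure (disLaw N L μ))
  meas σ := by
    have h : ∀ τ : Cube N, Measurable fun d : Dis N L => Real.exp (totalH f s x d τ) := fun τ =>
      ((measurable_totalH hf τ).comp measurable_prodMk_left).exp
    exact (h σ).div (Finset.measurable_sum _ fun τ _ => h τ)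
  nonneg d σ := div_nonneg (Real.exp_pos _).le (sum_exp_pos _).le
  sum_one d := by
    show ∑ σ, Real.exp (totalH f s x d σ) / _ = 1
    rw [← Finset.sum_div, div_self (sum_exp_pos _).ne']

/-- The normalised log-average over the cube. -/
def cubeLog (H : Cube N → ℝ) : ℝ := Real.log ((∑ σ, Real.exp (H σ)) / 2 ^ N)

lemma abs_cubeLog_le {H : Cube N → ℝ} {B : ℝ} (h : ∀ σ, |H σ| ≤ B) : |cubeLog H| ≤ B := by
  have hp : 0 < (∑ σ, Real.exp (H σ)) / 2 ^ N := div_pos (sum_exp_pos H) (by positivity)
  have hc : ∀ b : ℝ, (∑ _σ : Cube N, Real.exp b) / 2 ^ N = Real.exp b := fun b => by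
    simp
  rw [abs_le, cubeLog, Real.le_log_iff_exp_le hp, Real.log_le_iff_le_exp hp, ← hc (-B), ← hc B]
  exact ⟨div_le_div_of_nonneg_right
      (Finset.sum_le_sum fun σ _ => Real.exp_le_exp.2 (abs_le.1 (h σ)).1) (by positivity),
    div_le_div_of_nonneg_right
      (Finset.sum_le_sum fun σ _ => Real.exp_le_exp.2 (abs_le.1 (h σ)).2) (by positivity)⟩

lemma cubeLog_add (H G : Cube N → ℝ) :
    cubeLog (fun σ => H σ + G σ) - cubeLog H =
      Real.log (∑ σ, Real.exp (H σ) / (∑ τ, Real.exp (H τ)) * Real.exp (G σ)) := by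
  have h1 := sum_exp_pos fun σ => H σ + G σ
  have h2 := sum_exp_pos H
  rw [cubeLog, cubeLog, ← Real.log_div (div_pos h1 (by positivity)).ne'
    (div_pos h2 (by positivity)).ne']
  congr 1
  simp only [Real.exp_add, div_mul_eq_mul_div, ← Finset.sum_div]
  field_simp

/-- The constant in the bound on the perturbation. -/
def pertBound (s : ℝ) (L : ℕ) (J : PertIdx N L → ℝ) : ℝ := ∑ c, |J c| * (|s| * 2)

lemma abs_sv (σ : Cube N) (i : Fin N) : |sv σ i| = 1 := by unfold sv; split_ifs <;> simp

lemma abs_unitVec_le (σ : Cube N) (i : Fin N) : |unitVec σ i| ≤ 1 := by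
  have hN : 1 ≤ N := Nat.one_le_iff_ne_zero.2 fun h => by subst h; exact i.elim0
  have : (1 : ℝ) ≤ Real.sqrt N := Real.one_le_sqrt.2 (by exact_mod_cast hN)
  rw [unitVec, abs_div, abs_sv, abs_of_nonneg (Real.sqrt_nonneg _),
    div_le_one (by linarith)]
  exact this

lemma abs_pertH_le {x : Fin L → ℝ} (hx : ∀ i, x i ∈ Set.Icc (1 : ℝ) 2) (J : PertIdx N L → ℝ)
    (σ : Cube N) : |pertH s x J σ| ≤ pertBound s L J := by
  refine (Finset.abs_sum_le_sum_abs _ _).trans (Finset.sum_le_sum fun c _ => ?_)
  rw [abs_mul]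
  refine mul_le_mul_of_nonneg_left ?_ (abs_nonneg _)
  rw [abs_mul, abs_mul, abs_mul, abs_pow, Finset.abs_prod, mul_assoc, mul_assoc]
  refine mul_le_mul_of_nonneg_left ?_ (abs_nonneg _)
  have h1 : |x c.1| ≤ 2 := abs_le.2 ⟨by linarith [(hx c.1).1], (hx c.1).2⟩
  have h2 : |(1 : ℝ) / 2| ^ (c.1.val + 1) ≤ 1 := pow_le_one₀ (abs_nonneg _) (by norm_num)
  have h3 : ∏ i, |unitVec σ (c.2 i)| ≤ 1 :=
    Finset.prod_le_one (fun i _ => abs_nonneg _) fun i _ => abs_unitVec_le _ _
  calc |x c.1| * (|(1 : ℝ) / 2| ^ (c.1.val + 1) * ∏ i, |unitVec σ (c.2 i)|) ≤ 2 * (1 * 1) := by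
        gcongr
    _ = 2 := by norm_num

lemma integrable_pertBound : Integrable (pertBound (N := N) s L) (gam (PertIdx N L)) :=
  integrable_finsetSum _ fun c _ => ((P168.Toolkit.integrable_eval_gaussPi c).abs).mul_const _

lemma logPartS_eq (x : Fin L → ℝ) :
    logPartS N f s x μ = ∫ d, cubeLog (totalH f s x d) ∂disLaw N L μ := rfl

/-- A bound for the log partition of the perturbed system. -/
def disBound (A s : ℝ) (d : Dis N L) : ℝ := d.1 * A + pertBound s L d.2.2

lemma abs_cubeLog_totalH_le (hf : Smooth f A) {x : Fin L → ℝ} (hx : ∀ i, x i ∈ Set.Icc (1 : ℝ) 2)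
    (d : Dis N L) : |cubeLog (totalH f s x d)| ≤ disBound A s d :=
  abs_cubeLog_le fun σ => (abs_add_le _ _).trans
    (add_le_add (abs_patH_le hf _ _ σ) (abs_pertH_le hx _ σ))

lemma integrable_disBound (A s : ℝ) : Integrable (disBound (N := N) (L := L) A s) (disLaw N L μ) := by
  refine Integrable.add ?_ ?_
  · exact ((P168.Toolkit.integrable_count μ.toNNReal).mul_const A).comp_fst _
  · exact ((integrable_pertBound (N := N) (L := L) (s := s)).comp_snd
      (Measure.infinitePi fun _ : ℕ => gam (Fin N))).comp_snd (poissonMeasure μ.toNNReal)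

lemma measurable_cubeLog_totalH (hf : Smooth f A) :
    Measurable fun p : (Fin L → ℝ) × Dis N L => cubeLog (totalH f s p.1 p.2) :=
  ((Finset.measurable_sum _ fun σ _ => (measurable_totalH hf σ).exp).div_const _).log

lemma integrable_cubeLog (hf : Smooth f A) {x : Fin L → ℝ} (hx : ∀ i, x i ∈ Set.Icc (1 : ℝ) 2) :
    Integrable (fun d => cubeLog (totalH f s x d)) (disLaw N L μ) :=
  (integrable_disBound A s).mono'
    ((measurable_cubeLog_totalH hf).comp measurable_prodMk_left).aestronglyMeasurable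
    (Eventually.of_forall fun d => abs_cubeLog_totalH_le hf hx d)

lemma measurable_logPartS (hf : Smooth f A) :
    Measurable fun x : Fin L → ℝ => logPartS N f s x μ :=
  ((measurable_cubeLog_totalH hf).stronglyMeasurable.integral_prod_right'
    (ν := disLaw N L μ)).measurable

lemma integrable_logPartS (hf : Smooth f A) :
    Integrable (fun x => logPartS N f s x μ) (xLaw L) := by
  refine Integrable.of_bound (measurable_logPartS hf).aestronglyMeasurable
    (∫ d, disBound A s d ∂disLaw N L μ) ((ae_xLaw L).mono fun x hx => ?_)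
  exact (norm_integral_le_integral_norm _).trans (integral_mono (integrable_cubeLog hf hx).norm
    (integrable_disBound A s) fun d => abs_cubeLog_totalH_le hf hx d)

/-- The first `n` and the following `k` patterns are independent. -/
lemma mp_cut (n k : ℕ) :
    MeasurePreserving (fun g : ℕ → Fin N → ℝ => ((fun i : Fin n => g i), fun j : Fin k => g (n + j)))
      (Measure.infinitePi fun _ => gam (Fin N))
      ((Measure.pi fun _ : Fin n => gam (Fin N)).prod (Measure.pi fun _ : Fin k => gam (Fin N))) := by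
  have hm : Measurable fun g : ℕ → Fin N → ℝ =>
      ((fun i : Fin n => g i), fun j : Fin k => g (n + j)) := by fun_prop
  refine ⟨hm, ?_⟩
  have h1 : MeasurePreserving (fun g : ℕ → Fin N → ℝ => fun i : Fin (n + k) => g i)
      (Measure.infinitePi fun _ => gam (Fin N)) (Measure.pi fun _ => gam (Fin N)) := by
    refine ⟨by fun_prop, (Measure.pi_eq fun t ht => ?_).symm⟩
    rw [Measure.map_apply (by fun_prop) (MeasurableSet.univ_pi ht)]
    have e : (fun (g : ℕ → Fin N → ℝ) (i : Fin (n + k)) => g i) ⁻¹' Set.univ.pi t =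
        Set.pi (Finset.range (n + k)) fun i => if h : i < n + k then t ⟨i, h⟩ else Set.univ := by
      ext g
      simp only [Set.mem_preimage, Set.mem_pi, Set.mem_univ, forall_const, Finset.coe_range,
        Set.mem_Iio]
      exact ⟨fun h i hi => by simp only [dif_pos hi]; exact h ⟨i, hi⟩,
        fun h i => by simpa [i.isLt] using h i i.isLt⟩
    rw [e, Measure.infinitePi_pi]
    · rw [← Fin.prod_univ_eq_prod_range]
      exact Finset.prod_congr rfl fun i _ => by simp [i.isLt]
    · intro i hi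
      simp only [Finset.mem_range] at hi
      simp only [dif_pos hi]
      exact ht _
  have h2 : MeasurePreserving (fun c : Fin (n + k) → Fin N → ℝ =>
      ((fun i : Fin n => c (Fin.castAdd k i)), fun j : Fin k => c (Fin.natAdd n j)))
      (Measure.pi fun _ => gam (Fin N))
      ((Measure.pi fun _ : Fin n => gam (Fin N)).prod (Measure.pi fun _ : Fin k => gam (Fin N))) := by
    have a := (measurePreserving_piCongrLeft (fun _ : Fin (n + k) => gam (Fin N))
      (finSumFinEquiv (m := n) (n := k))).symm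
    exact (measurePreserving_sumPiEquivProdPi fun _ : Fin n ⊕ Fin k => gam (Fin N)).comp a
  exact (h2.comp h1).map_eq

end Vale.Agent.P157.Parisi.Main
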