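import Vale.Agent.P157.EvenPos

/-! Positivity of the correlation of second derivatives of an even profile. -/

noncomputable section

open MeasureTheory ProbabilityTheory

namespace Vale.Agent.P157.Parisi

theorem corr2_pos_of_even {φ : ℝ → ℝ} (_hφ : ContDiff ℝ 3 φ)
    (hb : ∃ A, ∀ j ≤ 3, ∀ x, |iteratedDeriv j φ x| ≤ A) (hev : ∀ z, φ (-z) = φ z)
    (hne : ∫ z, deriv (deriv φ) z ∂gaussianReal 0 1 ≠ 0) :
    ∀ ρ ∈ Set.Icc (-1 : ℝ) 1, 0 < corr2 (deriv (deriv φ)) ρ := by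
  intro ρ hρ
  obtain ⟨A, hA⟩ := hb
  have hm : Measurable (deriv (deriv φ)) := measurable_deriv _
  have hb2 : ∀ z, |deriv (deriv φ) z| ≤ A := fun z => by
    have := hA 2 (by norm_num) z
    rwa [iteratedDeriv_succ, iteratedDeriv_one] at this
  have hpos : 0 < (∫ z, deriv (deriv φ) z ∂gaussianReal 0 1) ^ 2 :=
    lt_of_le_of_ne (sq_nonneg _) (Ne.symm (pow_ne_zero 2 hne))
  rcases le_total 0 ρ with h | h
  · exact hpos.trans_le (corr2_ge_sq_mean hm hb2 ⟨h, hρ.2⟩)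
  · rw [← neg_neg ρ, corr2_neg hm (deriv_of_even hev)]
    exact hpos.trans_le (corr2_ge_sq_mean hm hb2 ⟨by linarith, by linarith [hρ.1]⟩)

end Vale.Agent.P157.Parisi
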