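import Vale.Agent.P157.Parisi.Main.Base

/-! Fresh patterns: a Poisson number of them leaves the asymptotic cascade unchanged. -/

noncomputable section

open MeasureTheory ProbabilityTheory Filter
open scoped BigOperators NNReal ENNReal Topology

namespace Vale.Agent.P157.Parisi.Main

open Vale.Agent.P168 (shapeProb)

variable {f : ℝ → ℝ} {A s μ : ℝ} {N L : ℕ}

lemma integral_dis {G : Dis N L → ℝ} (hG : Integrable G (disLaw N L μ)) :
    ∫ d, G d ∂disLaw N L μ = ∫ n, ∫ g, ∫ J, G (n, g, J) ∂gam (PertIdx N L)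
      ∂(Measure.infinitePi fun _ : ℕ => gam (Fin N)) ∂poissonMeasure μ.toNNReal := by
  rw [disLaw] at hG ⊢
  rw [integral_prod _ hG]
  refine integral_congr_ae (hG.prod_right_ae.mono fun n hn => ?_)
  exact integral_prod _ hn

lemma integral_cut (n k : ℕ) {G : (Fin n → Fin N → ℝ) × (Fin k → Fin N → ℝ) → ℝ}
    (hG : Measurable G) {B : ℝ} (hB : ∀ z, |G z| ≤ B) :
    ∫ g, G ((fun i : Fin n => g i), fun j : Fin k => g (n + j))
        ∂(Measure.infinitePi fun _ : ℕ => gam (Fin N)) =
      ∫ g, ∫ g', G ((fun i : Fin n => g i), g') ∂(Measure.pi fun _ => gam (Fin N))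
        ∂(Measure.infinitePi fun _ : ℕ => gam (Fin N)) := by
  have h := mp_cut (N := N) n k
  have hp : MeasurePreserving (fun g : ℕ → Fin N → ℝ => fun i : Fin n => g i)
      (Measure.infinitePi fun _ => gam (Fin N)) (Measure.pi fun _ => gam (Fin N)) :=
    measurePreserving_fst.comp h
  rw [← integral_map h.measurable.aemeasurable hG.aestronglyMeasurable, h.map_eq,
    integral_prod _ (integrable_of_abs_le hG hB), ← hp.map_eq,
    integral_map hp.measurable.aemeasurable
      (hG.stronglyMeasurable.integral_prod_right').aestronglyMeasurable]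

/-- The weight of `k` further patterns. -/
def freshW (f : ℝ → ℝ) {k : ℕ} (g : Fin k → Fin N → ℝ) (σ : Cube N) : ℝ :=
  Real.exp (∑ j, f (dot (g j) (unitVec σ)))

/-- The weights of the system. -/
def gibbs (H : Cube N → ℝ) (σ : Cube N) : ℝ := Real.exp (H σ) / ∑ τ, Real.exp (H τ)

lemma gibbs_nonneg (H : Cube N → ℝ) (σ : Cube N) : 0 ≤ gibbs H σ :=
  div_nonneg (Real.exp_pos _).le (sum_exp_pos H).le

lemma sum_gibbs (H : Cube N → ℝ) : ∑ σ, gibbs H σ = 1 := by
  unfold gibbs; rw [← Finset.sum_div, div_self (sum_exp_pos H).ne']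

lemma repAvg_add {n : ℕ} (H G : Cube N → ℝ) (Φ : (Fin n → Cube N) → ℝ) :
    ∑ σ : Fin n → Cube N, (∏ l, gibbs (fun τ => H τ + G τ) (σ l)) * Φ σ =
      (∑ σ : Fin n → Cube N, (∏ l, gibbs H (σ l) * Real.exp (G (σ l))) * Φ σ) /
        (∑ τ, gibbs H τ * Real.exp (G τ)) ^ n := by
  rw [Finset.sum_div]
  refine Finset.sum_congr rfl fun σ _ => ?_
  have h0 := (sum_exp_pos H).ne'
  have e : ∀ τ, gibbs (fun τ => H τ + G τ) τ =
      gibbs H τ * Real.exp (G τ) / ∑ τ, gibbs H τ * Real.exp (G τ) := by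
    intro τ
    simp only [gibbs, Real.exp_add, div_mul_eq_mul_div, ← Finset.sum_div]
    field_simp
  simp only [e, Finset.prod_div_distrib, Finset.prod_const, Finset.card_univ, Fintype.card_fin]
  rw [div_mul_eq_mul_div]

lemma patH_cut (f : ℝ → ℝ) (n k : ℕ) (g : ℕ → Fin N → ℝ) (σ : Cube N) :
    patH f (n + k) g σ = patH f n g σ + ∑ j : Fin k, f (dot (g (n + j)) (unitVec σ)) := by
  unfold patH
  rw [Finset.sum_range_add, Fin.sum_univ_eq_sum_range fun j => f (dot (g (n + j)) (unitVec σ))]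

lemma patH_congr (f : ℝ → ℝ) {n : ℕ} {g g' : ℕ → Fin N → ℝ} (h : ∀ i, i < n → g i = g' i) :
    patH f n g = patH f n g' := by
  funext σ
  exact Finset.sum_congr rfl fun a ha => by rw [h a (Finset.mem_range.1 ha)]

/-- Extend finitely many patterns by zero. -/
def ext0 {n : ℕ} (a : Fin n → Fin N → ℝ) (i : ℕ) : Fin N → ℝ :=
  if h : i < n then a ⟨i, h⟩ else 0

lemma measurable_ext0 (n : ℕ) : Measurable (ext0 (N := N) (n := n)) := by
  refine measurable_pi_lambda _ fun i => ?_
  unfold ext0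
  by_cases h : i < n <;> simp only [h, dite_true, dite_false] <;> fun_prop

/-- A functional of the system with `k` further patterns. -/
lemma integral_shift (hf : Smooth f A) (x : Fin L → ℝ) (n k : ℕ) (J : PertIdx N L → ℝ)
    {Φ : (Cube N → ℝ) → ℝ} (hΦ : Measurable Φ) {B : ℝ}
    (hB : ∀ (m : ℕ) (g : ℕ → Fin N → ℝ), |Φ fun σ => patH f m g σ + pertH s x J σ| ≤ B * ((m : ℝ) + 1)) :
    ∫ g, Φ (fun σ => patH f (n + k) g σ + pertH s x J σ)
        ∂(Measure.infinitePi fun _ : ℕ => gam (Fin N)) =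
      ∫ g, ∫ g' : Fin k → Fin N → ℝ,
          Φ (fun σ => patH f n g σ + pertH s x J σ + ∑ j, f (dot (g' j) (unitVec σ)))
        ∂(Measure.pi fun _ => gam (Fin N)) ∂(Measure.infinitePi fun _ : ℕ => gam (Fin N)) := by
  set G : (Fin n → Fin N → ℝ) × (Fin k → Fin N → ℝ) → ℝ := fun z =>
    Φ fun σ => patH f n (ext0 z.1) σ + pertH s x J σ + ∑ j, f (dot (z.2 j) (unitVec σ))
  have hGm : Measurable G := by
    refine hΦ.comp (measurable_pi_lambda _ fun σ => ?_)
    refine ((((measurable_patH hf σ).comp (f := fun z : (Fin n → Fin N → ℝ) × (Fin k → Fin N → ℝ) =>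
      (n, ext0 z.1)) (measurable_const.prodMk ((measurable_ext0 n).comp measurable_fst))).add
        measurable_const).add (Finset.measurable_sum _ fun j _ => (smooth_meas hf).comp ?_))
    unfold dot; fun_prop
  have hGb : ∀ z, |G z| ≤ B * (((n + k : ℕ) : ℝ) + 1) := by
    intro z
    set g : ℕ → Fin N → ℝ := fun i =>
      if i < n then ext0 z.1 i else if h : i - n < k then z.2 ⟨i - n, h⟩ else 0
    have e : G z = Φ fun σ => patH f (n + k) g σ + pertH s x J σ := by
      simp only [G]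
      congr 1; funext σ
      rw [patH_cut, patH_congr f (g := g) (g' := ext0 z.1) fun i hi => by simp [g, hi], add_right_comm]
      congr 1
      refine congrArg _ (Finset.sum_congr rfl fun j _ => ?_)
      simp [g, j.isLt]
    rw [e]
    exact hB _ _
  have h := integral_cut n k hGm hGb
  refine Eq.trans (integral_congr_ae (Eventually.of_forall fun g => ?_))
    (h.trans (integral_congr_ae (Eventually.of_forall fun g => ?_)))
  · simp only [G]
    congr 1; funext σ
    rw [patH_cut, patH_congr f (g := g) (g' := ext0 fun i : Fin n => g i) fun i hi => by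
      simp [ext0, hi], add_right_comm]
  · refine integral_congr_ae (Eventually.of_forall fun g' => ?_)
    simp only [G]
    rw [patH_congr f (g := g) (g' := ext0 fun i : Fin n => g i) fun i hi => by simp [ext0, hi]]

lemma measurable_gibbs (σ : Cube N) : Measurable fun H : Cube N → ℝ => gibbs H σ :=
  (measurable_pi_apply σ).exp.div
    (Finset.measurable_sum _ fun τ _ => (measurable_pi_apply τ).exp)

/-- A functional of the Hamiltonian, integrated over the disorder. -/
def disMean (f : ℝ → ℝ) (s : ℝ) (x : Fin L → ℝ) (N : ℕ) (μ : ℝ) (Φ : (Cube N → ℝ) → ℝ) : ℝ :=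
  ∫ d, Φ (totalH f s x d) ∂disLaw N L μ

/-- `k` fresh patterns in a functional. -/
def freshMean (f : ℝ → ℝ) (Φ : (Cube N → ℝ) → ℝ) (k : ℕ) (H : Cube N → ℝ) : ℝ :=
  ∫ g : Fin k → Fin N → ℝ, Φ (fun σ => H σ + ∑ j, f (dot (g j) (unitVec σ)))
    ∂(Measure.pi fun _ => gam (Fin N))

lemma measurable_freshMean (hf : Smooth f A) {Φ : (Cube N → ℝ) → ℝ} (hΦ : Measurable Φ) (k : ℕ) :
    Measurable (freshMean f Φ k) := by
  refine (StronglyMeasurable.integral_prod_right' (f := fun z : (Cube N → ℝ) × (Fin k → Fin N → ℝ) =>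
    Φ fun σ => z.1 σ + ∑ j, f (dot (z.2 j) (unitVec σ))) ?_).measurable
  refine (hΦ.comp (measurable_pi_lambda _ fun σ => ?_)).stronglyMeasurable
  refine ((measurable_pi_apply σ).comp measurable_fst).add
    (Finset.measurable_sum _ fun j _ => (smooth_meas hf).comp ?_)
  unfold dot; fun_prop

end Vale.Agent.P157.Parisi.Main
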