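import Vale.Agent.P157.Parisi.Main.Lower

/-! The formula from the two bounds. -/

noncomputable section

open MeasureTheory ProbabilityTheory Filter
open scoped BigOperators NNReal ENNReal Topology

namespace Vale.Agent.P157.Parisi.Main

lemma parisiValues_nonempty (α : ℝ) (f : ℝ → ℝ) : (parisiValues α f).Nonempty :=
  ⟨_, 0, Fin.elim0, fun _ => 0, ⟨fun i => i.elim0, fun i => i.elim0, fun i => i.elim0,
    monotone_const, le_rfl, zero_le_one⟩, rfl⟩

/-- The lower bound, in terms of the infimum. -/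
theorem lower_sInf (hLow : LowerStmt) {α A : ℝ} {f : ℝ → ℝ} (hα : 0 < α) (hf : Smooth f A)
    (hb : BddBelow (parisiValues α f)) {ε : ℝ} (hε : 0 < ε) :
    ∀ᶠ N : ℕ in atTop, sInf (parisiValues α f) - ε ≤ meanPressure isingLaw α f N := by
  filter_upwards [hLow α A f hα hf ε hε] with N hN
  obtain ⟨v, hv, h⟩ := hN
  linarith [csInf_le hb hv]

/-- The formula. -/
theorem formula_of (hLow : LowerStmt) (hUp : UpperStmt) {α A : ℝ} {f : ℝ → ℝ} (hα : 0 < α)
    (hf : Smooth f A) (hb : BddBelow (parisiValues α f)) (hc : BlockConcave f) :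
    Tendsto (meanPressure isingLaw α f) atTop (𝓝 (sInf (parisiValues α f))) := by
  rw [Metric.tendsto_nhds]
  intro ε hε
  obtain ⟨v, ⟨r, m, q, hq, rfl⟩, hv⟩ :=
    exists_lt_of_csInf_lt (parisiValues_nonempty α f)
      (show sInf (parisiValues α f) < sInf (parisiValues α f) + ε / 4 by linarith)
  filter_upwards [lower_sInf hLow hα hf hb (show 0 < ε / 4 by linarith),
    hUp α A f hα hf hc ⟨r, m, q, hq⟩ (ε / 4) (by linarith)] with N h1 h2
  rw [Real.dist_eq, abs_lt]
  constructor <;> linarith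

end Vale.Agent.P157.Parisi.Main
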